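import Vale.Agent.P229.Core
import Vale.Agent.P229.TaskBlock
import Vale.Agent.P229.TaskFinal

open scoped ContDiff

/-- There is a smooth Riemannian metric `g` on the plane such that, for every `k ≥ 4`
(in particular `k = ∞`), no open neighbourhood of the origin admits a `C^k` isometric
immersion into Euclidean three-space. -/
theorem Vale.Agent.Results.P229.NoLocalImmersion.result :
    ∃ g : EuclideanSpace ℝ (Fin 2) → Matrix (Fin 2) (Fin 2) ℝ,
      (∀ i j, ContDiff ℝ ∞ (fun x => g x i j)) ∧ (∀ x, (g x).PosDef) ∧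
      ∀ (k : WithTop ℕ∞), 4 ≤ k → ∀ U : Set (EuclideanSpace ℝ (Fin 2)), IsOpen U → 0 ∈ U →
        ∀ F : EuclideanSpace ℝ (Fin 2) → EuclideanSpace ℝ (Fin 3), ContDiffOn ℝ k F U →
          ¬ ∀ x ∈ U, ∀ i j : Fin 2,
            inner ℝ (fderiv ℝ F x (EuclideanSpace.single i 1))
              (fderiv ℝ F x (EuclideanSpace.single j 1)) = g x i j :=
  Vale.Agent.P229.final_of_block (Vale.Agent.P229.block_of_core Vale.Agent.P229.core)
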